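import Vale.Agent.Lib.P331.Basic

/-!
P331: the expectation lemma (L2), `E[T] ≤ 3 E[E0] + 2 E[EA]`, by two pair swaps
(independent backup by helper67 of the pool lemma `exp_T_le`; everything here carries the
seat name so that it cannot clash with another proof of the same statement).
-/

namespace Vale.Agent.Lib.P331

open Finset

noncomputable section

open Classical

variable {E : Type} [Fintype E] [DecidableEq E]

/-- The weighted double sum over sample atoms and value atoms of a function of the two real
vectors. -/
def h67ex {Ω : Type} [Fintype Ω] (p val : E → Ω → ℝ) (F : (E → ℝ) → (E → ℝ) → ℝ) : ℝ :=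
  ∑ s : E → Ω, ∑ v : E → Ω, wt p s * wt p v * F (vals val s) (vals val v)

omit [Fintype E] in
theorem h67_vals_update {Ω : Type} (val : E → Ω → ℝ) (s : E → Ω) (e : E) (ω : Ω) :
    vals val (Function.update s e ω) = Function.update (vals val s) e (val e ω) := by
  funext f
  unfold vals
  by_cases hf : f = e
  · subst hf; simp
  · simp [Function.update_of_ne hf]

theorem h67ex_swap {Ω : Type} [Fintype Ω] (p val : E → Ω → ℝ)
    (F : (E → ℝ) → (E → ℝ) → ℝ) (e : E) :
    h67ex p val F
      = h67ex p val (fun S V => F (Function.update S e (V e)) (Function.update V e (S e))) := by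
  unfold h67ex
  rw [sum_swap p (fun s v => F (vals val s) (vals val v)) e]
  apply Finset.sum_congr rfl
  intro s _
  apply Finset.sum_congr rfl
  intro v _
  rw [h67_vals_update, h67_vals_update]
  rfl

theorem h67ex_mono {Ω : Type} [Fintype Ω] (p val : E → Ω → ℝ)
    (hp : ∀ e ω, 0 ≤ p e ω) (hval : ∀ e ω, 0 ≤ val e ω)
    (F G : (E → ℝ) → (E → ℝ) → ℝ)
    (h : ∀ S V : E → ℝ, (∀ e, 0 ≤ S e) → (∀ e, 0 ≤ V e) → F S V ≤ G S V) :
    h67ex p val F ≤ h67ex p val G := by
  unfold h67ex
  apply Finset.sum_le_sum
  intro s _
  apply Finset.sum_le_sum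
  intro v _
  apply mul_le_mul_of_nonneg_left
  · exact h _ _ (fun e => hval e (s e)) (fun e => hval e (v e))
  · exact mul_nonneg (wt_nonneg p hp s) (wt_nonneg p hp v)

theorem h67ex_add {Ω : Type} [Fintype Ω] (p val : E → Ω → ℝ)
    (F G : (E → ℝ) → (E → ℝ) → ℝ) :
    h67ex p val (fun S V => F S V + G S V) = h67ex p val F + h67ex p val G := by
  unfold h67ex
  simp only [mul_add, Finset.sum_add_distrib]

theorem h67ex_zero {Ω : Type} [Fintype Ω] (p val : E → Ω → ℝ) :
    h67ex p val (fun _ _ => 0) = 0 := by
  unfold h67ex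
  simp

theorem h67ex_sum {Ω : Type} [Fintype Ω] (p val : E → Ω → ℝ) {ι : Type} (A : Finset ι)
    (F : ι → (E → ℝ) → (E → ℝ) → ℝ) :
    h67ex p val (fun S V => ∑ i ∈ A, F i S V) = ∑ i ∈ A, h67ex p val (F i) := by
  induction A using Finset.induction_on with
  | empty => simp [h67ex_zero]
  | insert a A ha ih =>
    rw [Finset.sum_insert ha, ← ih, ← h67ex_add]
    congr 1
    funext S V
    rw [Finset.sum_insert ha]

/-- `e` has the strictly largest value, above all samples. -/
def h67Q (M : Matroid E) (S V : E → ℝ) (e : E) : Prop :=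
  (∀ f ∈ NL M, f ≠ e → S f ≤ V e) ∧ S e < V e ∧ (∀ f ∈ NL M, f ≠ e → V f < V e)

/-- All values other than that of `e` are at most the largest sample. -/
def h67Good (M : Matroid E) (S V : E → ℝ) (e : E) : Prop :=
  ∀ g ∈ NL M, g ≠ e → V g ≤ topS M S

def h67h (M : Matroid E) (e : E) (S V : E → ℝ) : ℝ :=
  if (∀ f ∈ NL M, f ≠ e → S f ≤ S e) ∧ (∀ f ∈ NL M, V f < S e) then S e else 0

def h67q (M : Matroid E) (e : E) (S V : E → ℝ) : ℝ :=
  if h67Q M S V e then V e else 0

def h67qg (M : Matroid E) (e : E) (S V : E → ℝ) : ℝ :=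
  if h67Q M S V e ∧ h67Good M S V e then V e else 0

def h67bad (M : Matroid E) (e g : E) (S V : E → ℝ) : ℝ :=
  if h67Q M S V e ∧ topS M S < V g ∧ (∀ h ∈ NL M, h ≠ e → V h ≤ V g) then V e else 0

def h67u (M : Matroid E) (e g : E) (S V : E → ℝ) : ℝ :=
  if h67Q M S V e ∧ h67Good M S V e ∧ (∀ f ∈ NL M, f ≠ g → S f < S g) then V e else 0

/-- Step 1. -/
theorem h67_step1 (M : Matroid E) (S V : E → ℝ) (hS : ∀ e, 0 ≤ S e) :
    topS M S ≤ E0 M S V + ∑ e ∈ NL M, h67h M e S V := by
  have hnn : ∀ e ∈ NL M, 0 ≤ h67h M e S V := by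
    intro e _
    unfold h67h
    split_ifs
    · exact hS e
    · exact le_refl 0
  by_cases hex : ∃ e ∈ NL M, topS M S ≤ V e
  · have h0 : E0 M S V = topS M S := by
      unfold E0
      rw [if_pos hex]
    rw [h0]
    have := Finset.sum_nonneg hnn
    linarith
  · have h0 : E0 M S V = 0 := by
      unfold E0
      rw [if_neg hex]
    rw [h0, zero_add]
    by_cases hne : (NL M).Nonempty
    · obtain ⟨e, he, hSe⟩ := exists_eq_topS M S hS hne
      have hterm : h67h M e S V = topS M S := by
        unfold h67h
        rw [if_pos, hSe]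
        refine ⟨fun f hf _ => ?_, fun f hf => ?_⟩
        · rw [hSe]; exact le_topS M S hf
        · rw [hSe]
          by_contra hcon
          exact hex ⟨f, hf, not_lt.mp hcon⟩
      rw [← hterm]
      exact Finset.single_le_sum hnn he
    · rw [Finset.not_nonempty_iff_eq_empty] at hne
      rw [topS_eq_zero M S hne, hne]
      simp

/-- Step 2. -/
theorem h67_step2 (M : Matroid E) (S V : E → ℝ) (e : E) (he : e ∈ NL M) :
    h67h M e (Function.update S e (V e)) (Function.update V e (S e)) = h67q M e S V := by
  have hiff : ((∀ f ∈ NL M, f ≠ e →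
        Function.update S e (V e) f ≤ Function.update S e (V e) e) ∧
      (∀ f ∈ NL M, Function.update V e (S e) f < Function.update S e (V e) e))
      ↔ h67Q M S V e := by
    constructor
    · rintro ⟨h1, h2⟩
      refine ⟨fun f hf hfe => ?_, ?_, fun f hf hfe => ?_⟩
      · have h := h1 f hf hfe
        rwa [Function.update_of_ne hfe, Function.update_self] at h
      · have h := h2 e he
        rwa [Function.update_self, Function.update_self] at h
      · have h := h2 f hf
        rwa [Function.update_of_ne hfe, Function.update_self] at h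
    · rintro ⟨h1, h2, h3⟩
      refine ⟨fun f hf hfe => ?_, fun f hf => ?_⟩
      · rw [Function.update_of_ne hfe, Function.update_self]
        exact h1 f hf hfe
      · by_cases hfe : f = e
        · subst hfe
          rw [Function.update_self, Function.update_self]
          exact h2
        · rw [Function.update_of_ne hfe, Function.update_self]
          exact h3 f hf hfe
  unfold h67h h67q
  by_cases hQ : h67Q M S V e
  · rw [if_pos (hiff.mpr hQ), if_pos hQ, Function.update_self]
  · rw [if_neg (fun h => hQ (hiff.mp h)), if_neg hQ]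

/-- Step 3. -/
theorem h67_step3 (M : Matroid E) (S V : E → ℝ) (hV : ∀ e, 0 ≤ V e) (e : E) :
    h67q M e S V ≤ h67qg M e S V + ∑ g ∈ (NL M).erase e, h67bad M e g S V := by
  have hnn : ∀ g ∈ (NL M).erase e, 0 ≤ h67bad M e g S V := by
    intro g _
    unfold h67bad
    split_ifs
    · exact hV e
    · exact le_refl 0
  have hqg : 0 ≤ h67qg M e S V := by
    unfold h67qg
    split_ifs
    · exact hV e
    · exact le_refl 0
  have hsum := Finset.sum_nonneg hnn
  by_cases hQ : h67Q M S V e
  · by_cases hG : h67Good M S V e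
    · have h1 : h67q M e S V = V e := by unfold h67q; rw [if_pos hQ]
      have h2 : h67qg M e S V = V e := by unfold h67qg; rw [if_pos ⟨hQ, hG⟩]
      rw [h1, h2]
      linarith
    · have h1 : h67q M e S V = V e := by unfold h67q; rw [if_pos hQ]
      rw [h1]
      have hG' : ∃ g0 ∈ NL M, g0 ≠ e ∧ topS M S < V g0 := by
        by_contra hcon
        apply hG
        intro g hg hge
        by_contra hlt
        exact hcon ⟨g, hg, hge, not_le.mp hlt⟩
      obtain ⟨g0, hg0, hg0e, hTg0⟩ := hG'
      have hg0A : g0 ∈ (NL M).erase e := Finset.mem_erase.mpr ⟨hg0e, hg0⟩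
      obtain ⟨g, hgA, hmax⟩ := Finset.exists_max_image ((NL M).erase e) V ⟨g0, hg0A⟩
      have hterm : h67bad M e g S V = V e := by
        unfold h67bad
        rw [if_pos]
        refine ⟨hQ, lt_of_lt_of_le hTg0 (hmax g0 hg0A), fun h hh hhe => ?_⟩
        exact hmax h (Finset.mem_erase.mpr ⟨hhe, hh⟩)
      have hle : h67bad M e g S V ≤ ∑ g ∈ (NL M).erase e, h67bad M e g S V :=
        Finset.single_le_sum hnn hgA
      rw [hterm] at hle
      linarith
  · have h1 : h67q M e S V = 0 := by unfold h67q; rw [if_neg hQ]
    rw [h1]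
    linarith

/-- Step 4. -/
theorem h67_step4 (M : Matroid E) (S V : E → ℝ) (hS : ∀ e, 0 ≤ S e) (hV : ∀ e, 0 ≤ V e)
    (e g : E) (hg : g ∈ NL M) (hge : g ≠ e) :
    h67bad M e g (Function.update S g (V g)) (Function.update V g (S g)) ≤ h67u M e g S V := by
  have hu : 0 ≤ h67u M e g S V := by
    unfold h67u
    split_ifs
    · exact hV e
    · exact le_refl 0
  have heg : e ≠ g := fun h => hge h.symm
  by_cases hB : h67Q M (Function.update S g (V g)) (Function.update V g (S g)) e ∧
      topS M (Function.update S g (V g)) < Function.update V g (S g) g ∧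
      (∀ h ∈ NL M, h ≠ e → Function.update V g (S g) h ≤ Function.update V g (S g) g)
  · obtain ⟨⟨q1, q2, q3⟩, hT', hm⟩ := hB
    rw [Function.update_self] at hT'
    rw [Function.update_of_ne heg] at q2
    rw [Function.update_of_ne heg] at q2
    -- facts
    have hUstr : ∀ f ∈ NL M, f ≠ g → S f < S g := by
      intro f hf hfg
      have h1 : Function.update S g (V g) f ≤ topS M (Function.update S g (V g)) :=
        le_topS M _ hf
      rw [Function.update_of_ne hfg] at h1
      linarith
    have hVg : V g < S g := by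
      have h1 : Function.update S g (V g) g ≤ topS M (Function.update S g (V g)) :=
        le_topS M _ hg
      rw [Function.update_self] at h1
      linarith
    have hTg : topS M S = S g := by
      apply le_antisymm
      · apply topS_le M S (hS g)
        intro f hf
        by_cases hfg : f = g
        · rw [hfg]
        · exact (hUstr f hf hfg).le
      · exact le_topS M S hg
    have hSgVe : S g < V e := by
      have h1 := q3 g hg hge
      rw [Function.update_self, Function.update_of_ne heg] at h1
      exact h1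
    have hQ : h67Q M S V e := by
      refine ⟨fun f hf hfe => ?_, q2, fun f hf hfe => ?_⟩
      · by_cases hfg : f = g
        · rw [hfg]; exact hSgVe.le
        · have h1 := q1 f hf hfe
          rw [Function.update_of_ne hfg, Function.update_of_ne heg] at h1
          exact h1
      · by_cases hfg : f = g
        · rw [hfg]; linarith
        · have h1 := q3 f hf hfe
          rw [Function.update_of_ne hfg, Function.update_of_ne heg] at h1
          exact h1
    have hG : h67Good M S V e := by
      intro h hh hhe
      rw [hTg]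
      by_cases hhg : h = g
      · rw [hhg]; exact hVg.le
      · have h1 := hm h hh hhe
        rw [Function.update_of_ne hhg, Function.update_self] at h1
        exact h1
    have hR : h67u M e g S V = V e := by
      unfold h67u
      rw [if_pos ⟨hQ, hG, hUstr⟩]
    rw [hR]
    unfold h67bad
    split_ifs
    · rw [Function.update_of_ne heg]
    · exact hV e
  · have hL : h67bad M e g (Function.update S g (V g)) (Function.update V g (S g)) = 0 := by
      unfold h67bad
      rw [if_neg hB]
    rw [hL]
    exact hu

/-- Step 5. -/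
theorem h67_step5 (M : Matroid E) (S V : E → ℝ) (hV : ∀ e, 0 ≤ V e) (e : E) :
    ∑ g ∈ (NL M).erase e, h67u M e g S V ≤ h67qg M e S V := by
  by_cases hQG : h67Q M S V e ∧ h67Good M S V e
  · have h2 : h67qg M e S V = V e := by unfold h67qg; rw [if_pos hQG]
    rw [h2]
    by_cases hex : ∃ g1 ∈ (NL M).erase e, ∀ f ∈ NL M, f ≠ g1 → S f < S g1
    · obtain ⟨g1, hg1A, hg1⟩ := hex
      have hg1NL : g1 ∈ NL M := Finset.mem_of_mem_erase hg1A
      have hle : ∀ g ∈ (NL M).erase e, h67u M e g S V ≤ (if g = g1 then V e else 0) := by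
        intro g hgA
        have hgNL : g ∈ NL M := Finset.mem_of_mem_erase hgA
        unfold h67u
        by_cases hc : h67Q M S V e ∧ h67Good M S V e ∧ (∀ f ∈ NL M, f ≠ g → S f < S g)
        · rw [if_pos hc]
          have hgg : g = g1 := by
            by_contra hne
            have h1 := hc.2.2 g1 hg1NL (fun h => hne h.symm)
            have h2 := hg1 g hgNL hne
            linarith
          rw [if_pos hgg]
        · rw [if_neg hc]
          split_ifs
          · exact hV e
          · exact le_refl 0
      calc ∑ g ∈ (NL M).erase e, h67u M e g S V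
          ≤ ∑ g ∈ (NL M).erase e, (if g = g1 then V e else 0) := Finset.sum_le_sum hle
        _ = V e := by
          rw [Finset.sum_ite_eq' ((NL M).erase e) g1 (fun _ => V e), if_pos hg1A]
    · have hz : ∀ g ∈ (NL M).erase e, h67u M e g S V = 0 := by
        intro g hgA
        unfold h67u
        rw [if_neg]
        rintro ⟨_, _, h3⟩
        exact hex ⟨g, hgA, h3⟩
      rw [Finset.sum_eq_zero hz]
      exact hV e
  · have hz : ∀ g ∈ (NL M).erase e, h67u M e g S V = 0 := by
      intro g _
      unfold h67u
      rw [if_neg]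
      rintro ⟨h1, h2, _⟩
      exact hQG ⟨h1, h2⟩
    rw [Finset.sum_eq_zero hz]
    unfold h67qg
    rw [if_neg hQG]

/-- Step 6. -/
theorem h67_step6 (M : Matroid E) (S V : E → ℝ) (hV : ∀ e, 0 ≤ V e) :
    ∑ e ∈ NL M, h67qg M e S V ≤ E0 M S V + EA M S V := by
  have hE0 : 0 ≤ E0 M S V := by
    unfold E0
    split_ifs
    · exact topS_nonneg M S
    · exact le_refl 0
  have hEAnn : ∀ e ∈ NL M, 0 ≤ (if topS M S < V e ∧ ∀ e' ∈ NL M, e' ≠ e → V e' ≤ topS M S
      then V e else 0) := by
    intro e _
    split_ifs
    · exact hV e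
    · exact le_refl 0
  have hEA : 0 ≤ EA M S V := by
    unfold EA
    exact Finset.sum_nonneg hEAnn
  by_cases hex : ∃ e ∈ NL M, h67Q M S V e ∧ h67Good M S V e
  · obtain ⟨e, he, hQ, hG⟩ := hex
    have hle : ∀ e' ∈ NL M, h67qg M e' S V ≤ (if e' = e then V e else 0) := by
      intro e' he'
      unfold h67qg
      by_cases hc : h67Q M S V e' ∧ h67Good M S V e'
      · rw [if_pos hc]
        have hee : e' = e := by
          by_contra hne
          have h1 := hc.1.2.2 e he (fun h => hne h.symm)
          have h2 := hQ.2.2 e' he' hne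
          linarith
        rw [if_pos hee, hee]
      · rw [if_neg hc]
        split_ifs
        · exact hV e
        · exact le_refl 0
    have hsum : ∑ e' ∈ NL M, h67qg M e' S V ≤ V e := by
      calc ∑ e' ∈ NL M, h67qg M e' S V
          ≤ ∑ e' ∈ NL M, (if e' = e then V e else 0) := Finset.sum_le_sum hle
        _ = V e := by
          rw [Finset.sum_ite_eq' (NL M) e (fun _ => V e), if_pos he]
    have hT : topS M S ≤ V e := by
      apply topS_le M S (hV e)
      intro f hf
      by_cases hfe : f = e
      · rw [hfe]; exact hQ.2.1.le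
      · exact hQ.1 f hf hfe
    rcases eq_or_lt_of_le hT with hTe | hTe
    · have h0 : E0 M S V = topS M S := by
        unfold E0
        rw [if_pos ⟨e, he, hT⟩]
      linarith
    · have hterm : V e ≤ EA M S V := by
        unfold EA
        have h1 : (if topS M S < V e ∧ ∀ e' ∈ NL M, e' ≠ e → V e' ≤ topS M S
            then V e else 0) = V e := by
          rw [if_pos ⟨hTe, hG⟩]
        calc V e = (if topS M S < V e ∧ ∀ e' ∈ NL M, e' ≠ e → V e' ≤ topS M S
              then V e else 0) := h1.symm
          _ ≤ _ := Finset.single_le_sum hEAnn he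
      linarith
  · have hz : ∀ e ∈ NL M, h67qg M e S V = 0 := by
      intro e he
      unfold h67qg
      rw [if_neg]
      intro hc
      exact hex ⟨e, he, hc⟩
    rw [Finset.sum_eq_zero hz]
    linarith

/-- For one non-loop element `e`: the swapped gain is at most twice the good part. -/
theorem h67_elem {Ω : Type} [Fintype Ω] (M : Matroid E) (p val : E → Ω → ℝ)
    (hp : ∀ e ω, 0 ≤ p e ω) (hval : ∀ e ω, 0 ≤ val e ω) (e : E) (he : e ∈ NL M) :
    h67ex p val (h67h M e) ≤ 2 * h67ex p val (h67qg M e) := by
  -- swap the pair of e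
  have h1 : h67ex p val (h67h M e) = h67ex p val (h67q M e) := by
    rw [h67ex_swap p val (h67h M e) e]
    apply le_antisymm
    · apply h67ex_mono p val hp hval
      intro S V _ _
      exact (h67_step2 M S V e he).le
    · apply h67ex_mono p val hp hval
      intro S V _ _
      exact (h67_step2 M S V e he).ge
  -- covering
  have h2 : h67ex p val (h67q M e)
      ≤ h67ex p val (h67qg M e) + ∑ g ∈ (NL M).erase e, h67ex p val (h67bad M e g) := by
    rw [← h67ex_sum, ← h67ex_add]
    apply h67ex_mono p val hp hval
    intro S V _ hV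
    exact h67_step3 M S V hV e
  -- swap the pair of g
  have h3 : ∀ g ∈ (NL M).erase e, h67ex p val (h67bad M e g) ≤ h67ex p val (h67u M e g) := by
    intro g hgA
    rw [h67ex_swap p val (h67bad M e g) g]
    apply h67ex_mono p val hp hval
    intro S V hS hV
    exact h67_step4 M S V hS hV e g (Finset.mem_of_mem_erase hgA) (Finset.ne_of_mem_erase hgA)
  have h4 : ∑ g ∈ (NL M).erase e, h67ex p val (h67u M e g) ≤ h67ex p val (h67qg M e) := by
    rw [← h67ex_sum]
    apply h67ex_mono p val hp hval
    intro S V _ hV
    exact h67_step5 M S V hV e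
  have h5 := Finset.sum_le_sum h3
  linarith

theorem h67_exp_T_le (M : Matroid E) {Ω : Type} [Fintype Ω] (p val : E → Ω → ℝ)
    (hp : ∀ e ω, 0 ≤ p e ω) (hval : ∀ e ω, 0 ≤ val e ω) :
    ∑ s : E → Ω, ∑ v : E → Ω, wt p s * wt p v * topS M (vals val s)
      ≤ 3 * ∑ s : E → Ω, ∑ v : E → Ω, wt p s * wt p v * E0 M (vals val s) (vals val v)
        + 2 * ∑ s : E → Ω, ∑ v : E → Ω, wt p s * wt p v * EA M (vals val s) (vals val v) := by
  have hmain : h67ex p val (fun S _ => topS M S)
      ≤ 3 * h67ex p val (E0 M) + 2 * h67ex p val (EA M) := by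
    have h1 : h67ex p val (fun S _ => topS M S)
        ≤ h67ex p val (E0 M) + ∑ e ∈ NL M, h67ex p val (h67h M e) := by
      rw [← h67ex_sum, ← h67ex_add]
      apply h67ex_mono p val hp hval
      intro S V hS _
      exact h67_step1 M S V hS
    have h2 : ∑ e ∈ NL M, h67ex p val (h67h M e)
        ≤ ∑ e ∈ NL M, 2 * h67ex p val (h67qg M e) :=
      Finset.sum_le_sum fun e he => h67_elem M p val hp hval e he
    have h3 : ∑ e ∈ NL M, h67ex p val (h67qg M e)
        ≤ h67ex p val (E0 M) + h67ex p val (EA M) := by
      rw [← h67ex_sum, ← h67ex_add]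
      apply h67ex_mono p val hp hval
      intro S V _ hV
      exact h67_step6 M S V hV
    rw [← Finset.mul_sum] at h2
    linarith
  exact hmain

end

end Vale.Agent.Lib.P331
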