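import Vale.Agent.Lib.P331.Basic

/-!
P331, arbitrary laws: the joint law of samples and values, the expectation of a function of
the two real vectors as a lower Lebesgue integral, and its basic properties (monotone,
subadditive on measurable summands, superadditive on nonnegative summands, invariant under
swapping the sample and the value of one element).
-/

namespace Vale.Agent.Lib.P331

open Finset MeasureTheory

open scoped ENNReal NNReal

noncomputable section

open Classical

variable {E : Type} [Fintype E] [DecidableEq E]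

/-- The real vector of a vector of nonnegative reals. -/
def h67cr (x : E → ℝ≥0) : E → ℝ := fun e => (x e : ℝ)

omit [Fintype E] [DecidableEq E] in
theorem h67cr_nonneg (x : E → ℝ≥0) (e : E) : 0 ≤ h67cr x e := NNReal.coe_nonneg _

omit [Fintype E] in
theorem h67cr_update (x : E → ℝ≥0) (e : E) (a : ℝ≥0) :
    h67cr (Function.update x e a) = Function.update (h67cr x) e (a : ℝ) := by
  funext f
  unfold h67cr
  by_cases hf : f = e
  · subst hf; simp
  · simp [Function.update_of_ne hf]

/-- The joint law of the sample vector and the value vector. -/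
def h67P (μ : E → Measure ℝ≥0) : Measure ((E → ℝ≥0) × (E → ℝ≥0)) :=
  (Measure.pi μ).prod (Measure.pi μ)

/-- Expectation (lower Lebesgue integral) of a function of the two real vectors. -/
def h67gex (μ : E → Measure ℝ≥0) (F : (E → ℝ) → (E → ℝ) → ℝ) : ℝ≥0∞ :=
  ∫⁻ p, ENNReal.ofReal (F (h67cr p.1) (h67cr p.2)) ∂(h67P μ)

/-- Measurability of a function of the two real vectors. -/
def h67Meas (F : (E → ℝ) → (E → ℝ) → ℝ) : Prop :=
  Measurable (fun p : (E → ℝ≥0) × (E → ℝ≥0) => F (h67cr p.1) (h67cr p.2))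

theorem h67gex_mono (μ : E → Measure ℝ≥0) (F G : (E → ℝ) → (E → ℝ) → ℝ)
    (h : ∀ S V : E → ℝ, (∀ e, 0 ≤ S e) → (∀ e, 0 ≤ V e) → F S V ≤ G S V) :
    h67gex μ F ≤ h67gex μ G := by
  unfold h67gex
  apply lintegral_mono
  intro p
  exact ENNReal.ofReal_le_ofReal (h _ _ (h67cr_nonneg p.1) (h67cr_nonneg p.2))

theorem h67gex_add_le (μ : E → Measure ℝ≥0) (F G : (E → ℝ) → (E → ℝ) → ℝ)
    (hF : h67Meas F) :
    h67gex μ (fun S V => F S V + G S V) ≤ h67gex μ F + h67gex μ G := by
  unfold h67gex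
  have hm : Measurable (fun p : (E → ℝ≥0) × (E → ℝ≥0) =>
      ENNReal.ofReal (F (h67cr p.1) (h67cr p.2))) := hF.ennreal_ofReal
  rw [← lintegral_add_left hm]
  apply lintegral_mono
  intro p
  exact ENNReal.ofReal_add_le

theorem h67gex_zero (μ : E → Measure ℝ≥0) : h67gex μ (fun _ _ => 0) = 0 := by
  unfold h67gex
  simp

theorem h67gex_sum_le (μ : E → Measure ℝ≥0) {ι : Type} (A : Finset ι)
    (F : ι → (E → ℝ) → (E → ℝ) → ℝ) (hF : ∀ i, h67Meas (F i)) :
    h67gex μ (fun S V => ∑ i ∈ A, F i S V) ≤ ∑ i ∈ A, h67gex μ (F i) := by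
  induction A using Finset.induction_on with
  | empty => simp [h67gex_zero]
  | insert a A ha ih =>
    rw [Finset.sum_insert ha]
    have h1 : h67gex μ (fun S V => ∑ i ∈ insert a A, F i S V)
        = h67gex μ (fun S V => F a S V + ∑ i ∈ A, F i S V) := by
      congr 1
      funext S V
      rw [Finset.sum_insert ha]
    rw [h1]
    exact le_trans (h67gex_add_le μ _ _ (hF a)) (add_le_add le_rfl ih)

theorem h67gex_le_add (μ : E → Measure ℝ≥0) (F G : (E → ℝ) → (E → ℝ) → ℝ)
    (hF : ∀ S V : E → ℝ, (∀ e, 0 ≤ S e) → (∀ e, 0 ≤ V e) → 0 ≤ F S V)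
    (hG : ∀ S V : E → ℝ, (∀ e, 0 ≤ S e) → (∀ e, 0 ≤ V e) → 0 ≤ G S V) :
    h67gex μ F + h67gex μ G ≤ h67gex μ (fun S V => F S V + G S V) := by
  unfold h67gex
  refine le_trans (le_lintegral_add _ _) ?_
  apply lintegral_mono
  intro p
  show ENNReal.ofReal (F (h67cr p.1) (h67cr p.2)) + ENNReal.ofReal (G (h67cr p.1) (h67cr p.2))
    ≤ ENNReal.ofReal (F (h67cr p.1) (h67cr p.2) + G (h67cr p.1) (h67cr p.2))
  rw [ENNReal.ofReal_add (hF _ _ (h67cr_nonneg p.1) (h67cr_nonneg p.2))
    (hG _ _ (h67cr_nonneg p.1) (h67cr_nonneg p.2))]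

theorem h67gex_le_sum (μ : E → Measure ℝ≥0) {ι : Type} (A : Finset ι)
    (F : ι → (E → ℝ) → (E → ℝ) → ℝ)
    (hF : ∀ i, ∀ S V : E → ℝ, (∀ e, 0 ≤ S e) → (∀ e, 0 ≤ V e) → 0 ≤ F i S V) :
    ∑ i ∈ A, h67gex μ (F i) ≤ h67gex μ (fun S V => ∑ i ∈ A, F i S V) := by
  induction A using Finset.induction_on with
  | empty => simp
  | insert a A ha ih =>
    rw [Finset.sum_insert ha]
    have h1 : h67gex μ (fun S V => ∑ i ∈ insert a A, F i S V)
        = h67gex μ (fun S V => F a S V + ∑ i ∈ A, F i S V) := by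
      congr 1
      funext S V
      rw [Finset.sum_insert ha]
    rw [h1]
    refine le_trans (add_le_add le_rfl ih) ?_
    exact h67gex_le_add μ _ _ (hF a)
      (fun S V hS hV => Finset.sum_nonneg fun i _ => hF i S V hS hV)

theorem h67gex_const_mul (μ : E → Measure ℝ≥0) (c : ℝ) (hc : 0 ≤ c)
    (F : (E → ℝ) → (E → ℝ) → ℝ) :
    h67gex μ (fun S V => c * F S V) = ENNReal.ofReal c * h67gex μ F := by
  unfold h67gex
  rw [← lintegral_const_mul' _ _ ENNReal.ofReal_ne_top]
  apply lintegral_congr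
  intro p
  exact ENNReal.ofReal_mul hc

/-- Swapping the sample and the value of the element `e`. -/
def h67swap (e : E) (p : (E → ℝ≥0) × (E → ℝ≥0)) : (E → ℝ≥0) × (E → ℝ≥0) :=
  (Function.update p.1 e (p.2 e), Function.update p.2 e (p.1 e))

theorem h67swap_mp (μ : E → Measure ℝ≥0) [∀ e, IsProbabilityMeasure (μ e)] (e : E) :
    MeasurePreserving (h67swap e) (h67P μ) (h67P μ) := by
  have hΨ := measurePreserving_arrowProdEquivProdArrow ℝ≥0 ℝ≥0 E μ μ
  have hτ : MeasurePreserving
      (fun (a : E → ℝ≥0 × ℝ≥0) (i : E) => (if i = e then Prod.swap else id) (a i))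
      (Measure.pi fun i => (μ i).prod (μ i)) (Measure.pi fun i => (μ i).prod (μ i)) := by
    apply measurePreserving_pi (fun i => (μ i).prod (μ i)) (fun i => (μ i).prod (μ i))
    intro i
    by_cases hi : i = e
    · rw [if_pos hi]
      exact Measure.measurePreserving_swap
    · rw [if_neg hi]
      exact MeasurePreserving.id _
  have hcomp := hΨ.comp (hτ.comp (hΨ.symm _))
  have heq : h67swap e = (⇑(MeasurableEquiv.arrowProdEquivProdArrow ℝ≥0 ℝ≥0 E) ∘
      (fun (a : E → ℝ≥0 × ℝ≥0) (i : E) => (if i = e then Prod.swap else id) (a i)) ∘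
      ⇑(MeasurableEquiv.arrowProdEquivProdArrow ℝ≥0 ℝ≥0 E).symm) := by
    funext p
    apply Prod.ext
    · funext i
      by_cases hi : i = e
      · subst hi
        simp [h67swap, MeasurableEquiv.arrowProdEquivProdArrow, Equiv.arrowProdEquivProdArrow]
      · simp [h67swap, MeasurableEquiv.arrowProdEquivProdArrow, Equiv.arrowProdEquivProdArrow,
          Function.update_of_ne hi, hi]
    · funext i
      by_cases hi : i = e
      · subst hi
        simp [h67swap, MeasurableEquiv.arrowProdEquivProdArrow, Equiv.arrowProdEquivProdArrow]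
      · simp [h67swap, MeasurableEquiv.arrowProdEquivProdArrow, Equiv.arrowProdEquivProdArrow,
          Function.update_of_ne hi, hi]
  rw [heq]
  exact hcomp

theorem h67gex_swap (μ : E → Measure ℝ≥0) [∀ e, IsProbabilityMeasure (μ e)]
    (F : (E → ℝ) → (E → ℝ) → ℝ) (hF : h67Meas F) (e : E) :
    h67gex μ F
      = h67gex μ (fun S V => F (Function.update S e (V e)) (Function.update V e (S e))) := by
  unfold h67gex
  have hm : Measurable (fun p : (E → ℝ≥0) × (E → ℝ≥0) =>
      ENNReal.ofReal (F (h67cr p.1) (h67cr p.2))) := hF.ennreal_ofReal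
  rw [← (h67swap_mp μ e).lintegral_comp hm]
  apply lintegral_congr
  intro p
  show ENNReal.ofReal (F (h67cr (Function.update p.1 e (p.2 e)))
      (h67cr (Function.update p.2 e (p.1 e)))) = _
  rw [h67cr_update, h67cr_update]
  rfl

end

end Vale.Agent.Lib.P331
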