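import Vale.Agent.Lib.P331.helper67.GenBasic
import Vale.Agent.Lib.P331.helper67.ExpT

/-!
P331, arbitrary laws: measurability of the functions of the two real vectors that occur in
the analysis of the threshold rule.
-/

namespace Vale.Agent.Lib.P331

open Finset MeasureTheory

open scoped ENNReal NNReal

noncomputable section

open Classical

variable {E : Type} [Fintype E] [DecidableEq E]

theorem h67_ms_forall {α : Type} [MeasurableSpace α] (P : E → α → Prop)
    (h : ∀ f, MeasurableSet {a | P f a}) : MeasurableSet {a | ∀ f, P f a} := by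
  have h1 : {a | ∀ f, P f a} = ⋂ f, {a | P f a} := by
    ext a
    simp
  rw [h1]
  exact MeasurableSet.iInter h

theorem h67_ms_exists {α : Type} [MeasurableSpace α] (P : E → α → Prop)
    (h : ∀ f, MeasurableSet {a | P f a}) : MeasurableSet {a | ∃ f, P f a} := by
  have h1 : {a | ∃ f, P f a} = ⋃ f, {a | P f a} := by
    ext a
    simp
  rw [h1]
  exact MeasurableSet.iUnion h

omit [Fintype E] [DecidableEq E] in
theorem h67_ms_imp {α : Type} [MeasurableSpace α] (c : Prop) (P : α → Prop)
    (h : MeasurableSet {a | P a}) : MeasurableSet {a | c → P a} := by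
  by_cases hc : c
  · simpa [hc] using h
  · simp [hc]

omit [Fintype E] [DecidableEq E] in
theorem h67_ms_cand {α : Type} [MeasurableSpace α] (c : Prop) (P : α → Prop)
    (h : MeasurableSet {a | P a}) : MeasurableSet {a | c ∧ P a} := by
  by_cases hc : c
  · simpa [hc] using h
  · simp [hc]

omit [Fintype E] [DecidableEq E] in
theorem h67_ms_and {α : Type} [MeasurableSpace α] (P Q : α → Prop)
    (hP : MeasurableSet {a | P a}) (hQ : MeasurableSet {a | Q a}) :
    MeasurableSet {a | P a ∧ Q a} := hP.inter hQ

omit [Fintype E] [DecidableEq E] in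
theorem h67_measS (f : E) :
    Measurable (fun p : (E → ℝ≥0) × (E → ℝ≥0) => h67cr p.1 f) := by
  unfold h67cr
  fun_prop

omit [Fintype E] [DecidableEq E] in
theorem h67_measV (f : E) :
    Measurable (fun p : (E → ℝ≥0) × (E → ℝ≥0) => h67cr p.2 f) := by
  unfold h67cr
  fun_prop

omit [Fintype E] in
theorem h67_meas_finsup {α : Type} [MeasurableSpace α] (s : Finset E) (f : E → α → ℝ≥0)
    (hf : ∀ e, Measurable (f e)) : Measurable (fun a => s.sup (fun e => f e a)) := by
  induction s using Finset.induction_on with
  | empty => simp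
  | insert a s ha ih =>
    simp only [Finset.sup_insert]
    exact (hf a).sup ih

theorem h67_measT (M : Matroid E) :
    Measurable (fun p : (E → ℝ≥0) × (E → ℝ≥0) => topS M (h67cr p.1)) := by
  have h1 : (fun p : (E → ℝ≥0) × (E → ℝ≥0) => topS M (h67cr p.1))
      = fun p => (((NL M).sup fun e => (h67cr p.1 e).toNNReal : ℝ≥0) : ℝ) := by
    funext p
    rw [topS_eq]
  rw [h1]
  apply Measurable.coe_nnreal_real
  exact h67_meas_finsup (NL M)
    (fun e (p : (E → ℝ≥0) × (E → ℝ≥0)) => (h67cr p.1 e).toNNReal)
    (fun e => (h67_measS e).real_toNNReal)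

theorem h67Meas_T (M : Matroid E) : h67Meas (fun (S : E → ℝ) (_ : E → ℝ) => topS M S) :=
  h67_measT M

/-- The value of `e` counted when it is strictly above the largest sample. -/
def h67x (M : Matroid E) (e : E) (S V : E → ℝ) : ℝ :=
  if topS M S < V e then V e else 0

theorem h67Meas_x (M : Matroid E) (e : E) : h67Meas (h67x M e) := by
  unfold h67Meas h67x
  exact Measurable.ite (measurableSet_lt (h67_measT M) (h67_measV e)) (h67_measV e)
    measurable_const

theorem h67Meas_E0 (M : Matroid E) : h67Meas (E0 M) := by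
  unfold h67Meas E0
  refine Measurable.ite ?_ (h67_measT M) measurable_const
  exact h67_ms_exists _ (fun e => h67_ms_cand _ _
    (measurableSet_le (h67_measT M) (h67_measV e)))

theorem h67Meas_h (M : Matroid E) (e : E) : h67Meas (h67h M e) := by
  unfold h67Meas h67h
  refine Measurable.ite ?_ (h67_measS e) measurable_const
  refine h67_ms_and _ _ ?_ ?_
  · exact h67_ms_forall _ (fun f => h67_ms_imp _ _ (h67_ms_imp _ _
      (measurableSet_le (h67_measS f) (h67_measS e))))
  · exact h67_ms_forall _ (fun f => h67_ms_imp _ _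
      (measurableSet_lt (h67_measV f) (h67_measS e)))

theorem h67_msQ (M : Matroid E) (e : E) :
    MeasurableSet {p : (E → ℝ≥0) × (E → ℝ≥0) | h67Q M (h67cr p.1) (h67cr p.2) e} := by
  unfold h67Q
  refine h67_ms_and _ _ ?_ (h67_ms_and _ _ ?_ ?_)
  · exact h67_ms_forall _ (fun f => h67_ms_imp _ _ (h67_ms_imp _ _
      (measurableSet_le (h67_measS f) (h67_measV e))))
  · exact measurableSet_lt (h67_measS e) (h67_measV e)
  · exact h67_ms_forall _ (fun f => h67_ms_imp _ _ (h67_ms_imp _ _
      (measurableSet_lt (h67_measV f) (h67_measV e))))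

theorem h67_msGood (M : Matroid E) (e : E) :
    MeasurableSet {p : (E → ℝ≥0) × (E → ℝ≥0) | h67Good M (h67cr p.1) (h67cr p.2) e} := by
  unfold h67Good
  exact h67_ms_forall _ (fun g => h67_ms_imp _ _ (h67_ms_imp _ _
    (measurableSet_le (h67_measV g) (h67_measT M))))

theorem h67Meas_qg (M : Matroid E) (e : E) : h67Meas (h67qg M e) := by
  unfold h67Meas h67qg
  exact Measurable.ite (h67_ms_and _ _ (h67_msQ M e) (h67_msGood M e)) (h67_measV e)
    measurable_const

theorem h67Meas_bad (M : Matroid E) (e g : E) : h67Meas (h67bad M e g) := by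
  unfold h67Meas h67bad
  refine Measurable.ite ?_ (h67_measV e) measurable_const
  refine h67_ms_and _ _ (h67_msQ M e) (h67_ms_and _ _ ?_ ?_)
  · exact measurableSet_lt (h67_measT M) (h67_measV g)
  · exact h67_ms_forall _ (fun h => h67_ms_imp _ _ (h67_ms_imp _ _
      (measurableSet_le (h67_measV h) (h67_measV g))))

end

end Vale.Agent.Lib.P331
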