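import Vale.Agent.Lib.P331.helper67.GenMeas
import Vale.Agent.Lib.P331.helper20.Rule

/-!
P331, arbitrary laws: the threshold rule is a measurable procedure.  For every seed, every
arrival list and every element, the event that the element is accepted is a measurable set of
pairs (sample vector, value vector).
-/

namespace Vale.Agent.Lib.P331

open Finset MeasureTheory

open scoped ENNReal NNReal

noncomputable section

open Classical

variable {E : Type} [Fintype E] [DecidableEq E]

theorem h67_go_meas (M : Matroid E) (J : ℕ) (b : Bool)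
    (θ : (E → ℝ≥0) × (E → ℝ≥0) → ℝ) (hθ : Measurable θ) (l : List E) :
    ∀ (acc : Finset E) (e : E), MeasurableSet {p : (E → ℝ≥0) × (E → ℝ≥0) |
      e ∈ (thrRule M J).go (h67cr p.2) l (⟨b, θ p, acc⟩ : ThrMem E)} := by
  induction l with
  | nil =>
    intro acc e
    have h : {p : (E → ℝ≥0) × (E → ℝ≥0) |
        e ∈ (thrRule M J).go (h67cr p.2) [] (⟨b, θ p, acc⟩ : ThrMem E)} = ∅ := by
      ext p
      simp only [Set.mem_ofPred_eq, Set.mem_empty_iff_false, iff_false]
      show e ∉ (∅ : Finset E)
      simp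
    rw [h]
    exact MeasurableSet.empty
  | cons a l ih =>
    intro acc e
    have hc : MeasurableSet {p : (E → ℝ≥0) × (E → ℝ≥0) |
        (if b = true then θ p < h67cr p.2 a else θ p ≤ h67cr p.2 a)
          ∧ M.Indep (insert a (acc : Set E))} := by
      cases b with
      | true =>
        simp only [if_true]
        exact h67_ms_and _ _ (measurableSet_lt hθ (h67_measV a)) (MeasurableSet.const _)
      | false =>
        simp only [Bool.false_eq_true, if_false]
        exact h67_ms_and _ _ (measurableSet_le hθ (h67_measV a)) (MeasurableSet.const _)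
    have hset : {p : (E → ℝ≥0) × (E → ℝ≥0) |
        e ∈ (thrRule M J).go (h67cr p.2) (a :: l) (⟨b, θ p, acc⟩ : ThrMem E)}
        = ({p : (E → ℝ≥0) × (E → ℝ≥0) |
              (if b = true then θ p < h67cr p.2 a else θ p ≤ h67cr p.2 a)
                ∧ M.Indep (insert a (acc : Set E))}
            ∩ ({_p : (E → ℝ≥0) × (E → ℝ≥0) | e = a}
              ∪ {p : (E → ℝ≥0) × (E → ℝ≥0) |
                e ∈ (thrRule M J).go (h67cr p.2) l (⟨b, θ p, insert a acc⟩ : ThrMem E)}))
          ∪ ({p : (E → ℝ≥0) × (E → ℝ≥0) |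
              (if b = true then θ p < h67cr p.2 a else θ p ≤ h67cr p.2 a)
                ∧ M.Indep (insert a (acc : Set E))}ᶜ
            ∩ {p : (E → ℝ≥0) × (E → ℝ≥0) |
                e ∈ (thrRule M J).go (h67cr p.2) l (⟨b, θ p, acc⟩ : ThrMem E)}) := by
      ext p
      simp only [Set.mem_ofPred_eq, Set.mem_union, Set.mem_inter_iff, Set.mem_compl_iff]
      rw [H20.go_cons]
      by_cases hcp : (if b = true then θ p < h67cr p.2 a else θ p ≤ h67cr p.2 a)
          ∧ M.Indep (insert a (acc : Set E))
      · have h1 : thrStep M (⟨b, θ p, acc⟩ : ThrMem E) a (h67cr p.2 a)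
            = (true, ⟨b, θ p, insert a acc⟩) := by
          unfold thrStep
          rw [if_pos hcp]
        rw [h1]
        simp only [if_true, Finset.mem_insert]
        tauto
      · have h1 : thrStep M (⟨b, θ p, acc⟩ : ThrMem E) a (h67cr p.2 a)
            = (false, ⟨b, θ p, acc⟩) := by
          unfold thrStep
          rw [if_neg hcp]
        rw [h1]
        simp only [Bool.false_eq_true, if_false]
        tauto
    rw [hset]
    exact (hc.inter ((MeasurableSet.const _).union (ih _ _))).union (hc.compl.inter (ih _ _))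

/-- For every seed, arrival list and element, the event that the threshold rule accepts the
element is measurable in the pair (sample vector, value vector). -/
theorem h67_run_meas (M : Matroid E) (J : ℕ) (r : Fin (J + 10)) (l : List E) (e : E) :
    MeasurableSet {p : (E → ℝ≥0) × (E → ℝ≥0) |
      e ∈ (thrRule M J).run (fun x => (p.1 x : ℝ)) r (fun x => (p.2 x : ℝ)) l} := by
  have hθ : Measurable (fun p : (E → ℝ≥0) × (E → ℝ≥0) =>
      topS M (h67cr p.1) / 2 ^ thrExp r.val) :=
    (h67_measT M).div_const _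
  exact h67_go_meas M J (decide (r.val < 4)) _ hθ l ∅ e

/-- The same for an adversary whose choice of the arrival list is measurable. -/
theorem h67_run_adv_meas (M : Matroid E) (J : ℕ)
    (adv : (E → ℝ≥0) → (E → ℝ≥0) → Fin (J + 10) → List E)
    (hm : ∀ (r : Fin (J + 10)) (l : List E),
      MeasurableSet {p : (E → ℝ≥0) × (E → ℝ≥0) | adv p.1 p.2 r = l})
    (r : Fin (J + 10)) (e : E) :
    MeasurableSet {p : (E → ℝ≥0) × (E → ℝ≥0) |
      e ∈ (thrRule M J).run (fun x => (p.1 x : ℝ)) r (fun x => (p.2 x : ℝ))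
        (adv p.1 p.2 r)} := by
  have h : {p : (E → ℝ≥0) × (E → ℝ≥0) |
      e ∈ (thrRule M J).run (fun x => (p.1 x : ℝ)) r (fun x => (p.2 x : ℝ)) (adv p.1 p.2 r)}
      = ⋃ l : List E, ({p : (E → ℝ≥0) × (E → ℝ≥0) | adv p.1 p.2 r = l}
          ∩ {p : (E → ℝ≥0) × (E → ℝ≥0) |
            e ∈ (thrRule M J).run (fun x => (p.1 x : ℝ)) r (fun x => (p.2 x : ℝ)) l}) := by
    ext p
    simp only [Set.mem_ofPred_eq, Set.mem_iUnion, Set.mem_inter_iff]
    constructor
    · intro hp
      exact ⟨adv p.1 p.2 r, rfl, hp⟩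
    · rintro ⟨l, hl, hp⟩
      rw [hl]
      exact hp
  rw [h]
  exact MeasurableSet.iUnion fun l => (hm r l).inter (h67_run_meas M J r l e)

/-- For a measurable adversary the total accepted weight over the seeds is a measurable
function of the pair (sample vector, value vector). -/
theorem h67_gain_meas (M : Matroid E) (J : ℕ)
    (adv : (E → ℝ≥0) → (E → ℝ≥0) → Fin (J + 10) → List E)
    (hm : ∀ (r : Fin (J + 10)) (l : List E),
      MeasurableSet {p : (E → ℝ≥0) × (E → ℝ≥0) | adv p.1 p.2 r = l}) :
    Measurable (fun p : (E → ℝ≥0) × (E → ℝ≥0) => ∑ r : Fin (J + 10), ENNReal.ofReal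
      (∑ e ∈ (thrRule M J).run (fun e => (p.1 e : ℝ)) r (fun e => (p.2 e : ℝ))
        (adv p.1 p.2 r), (p.2 e : ℝ))) := by
  refine Finset.measurable_sum _ (fun r _ => ?_)
  apply Measurable.ennreal_ofReal
  have h : (fun p : (E → ℝ≥0) × (E → ℝ≥0) =>
      ∑ e ∈ (thrRule M J).run (fun e => (p.1 e : ℝ)) r (fun e => (p.2 e : ℝ))
        (adv p.1 p.2 r), (p.2 e : ℝ))
      = fun p => ∑ e : E, if e ∈ (thrRule M J).run (fun e => (p.1 e : ℝ)) r
          (fun e => (p.2 e : ℝ)) (adv p.1 p.2 r) then h67cr p.2 e else 0 := by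
    funext p
    rw [Finset.sum_ite_mem, Finset.univ_inter]
    rfl
  rw [h]
  exact Finset.measurable_sum _ (fun e _ =>
    Measurable.ite (h67_run_adv_meas M J adv hm r e) (h67_measV e) measurable_const)

end

end Vale.Agent.Lib.P331
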