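import Vale.Agent.Lib.P331.Assembly
import Vale.Agent.Lib.P331.helper67.GenMeas

/-!
P331, arbitrary laws: the one-sample guarantee of the threshold rule for all Borel probability
laws on the nonnegative reals, with expectations written as lower Lebesgue integrals.
-/

namespace Vale.Agent.Lib.P331

open Finset MeasureTheory

open scoped ENNReal NNReal

noncomputable section

open Classical

variable {E : Type} [Fintype E] [DecidableEq E]

/-- The sample of `e` when it is strictly the largest non-loop sample. -/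
def h67U (M : Matroid E) (e : E) (S : E → ℝ) (_ : E → ℝ) : ℝ :=
  if (∀ f ∈ NL M, f ≠ e → S f < S e) then S e else 0

theorem h67U_nonneg (M : Matroid E) (e : E) (S V : E → ℝ) (hS : ∀ e, 0 ≤ S e) :
    0 ≤ h67U M e S V := by
  unfold h67U
  split_ifs
  · exact hS e
  · exact le_refl 0

theorem h67_x_swap_le (M : Matroid E) (S V : E → ℝ) (hS : ∀ e, 0 ≤ S e) (e : E)
    (he : e ∈ NL M) :
    h67x M e (Function.update S e (V e)) (Function.update V e (S e)) ≤ h67U M e S V := by
  have _ := he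
  unfold h67x
  rw [Function.update_self]
  by_cases hc : topS M (Function.update S e (V e)) < S e
  · rw [if_pos hc]
    have hmax : ∀ f ∈ NL M, f ≠ e → S f < S e := by
      intro f hf hfe
      have h1 := le_topS M (Function.update S e (V e)) hf
      rw [Function.update_of_ne hfe] at h1
      linarith
    unfold h67U
    rw [if_pos hmax]
  · rw [if_neg hc]
    exact h67U_nonneg M e S V hS

theorem h67_sum_U_le (M : Matroid E) (S V : E → ℝ) (hS : ∀ e, 0 ≤ S e) :
    ∑ e ∈ NL M, h67U M e S V ≤ topS M S := by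
  by_cases hex : ∃ e ∈ NL M, ∀ f ∈ NL M, f ≠ e → S f < S e
  · obtain ⟨e, he, hmax⟩ := hex
    have hle : ∀ e' ∈ NL M, h67U M e' S V ≤ (if e' = e then S e else 0) := by
      intro e' he'
      unfold h67U
      by_cases hc : ∀ f ∈ NL M, f ≠ e' → S f < S e'
      · rw [if_pos hc]
        have hee : e' = e := by
          by_contra hne
          have h1 := hc e he (fun h => hne h.symm)
          have h2 := hmax e' he' hne
          linarith
        rw [if_pos hee, hee]
      · rw [if_neg hc]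
        split_ifs
        · exact hS e
        · exact le_refl 0
    calc ∑ e' ∈ NL M, h67U M e' S V
        ≤ ∑ e' ∈ NL M, (if e' = e then S e else 0) := Finset.sum_le_sum hle
      _ = S e := by
        rw [Finset.sum_ite_eq' (NL M) e (fun _ => S e), if_pos he]
      _ ≤ topS M S := le_topS M S he
  · have hz : ∀ e ∈ NL M, h67U M e S V = 0 := by
      intro e he
      unfold h67U
      rw [if_neg]
      intro hc
      exact hex ⟨e, he, hc⟩
    rw [Finset.sum_eq_zero hz]
    exact topS_nonneg M S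

/-- (L1) for arbitrary laws. -/
theorem h67_gex_X_le (M : Matroid E) (μ : E → Measure ℝ≥0) [∀ e, IsProbabilityMeasure (μ e)] :
    h67gex μ (fun S V => ∑ e ∈ NL M, h67x M e S V) ≤ h67gex μ (fun S _ => topS M S) := by
  calc h67gex μ (fun S V => ∑ e ∈ NL M, h67x M e S V)
      ≤ ∑ e ∈ NL M, h67gex μ (h67x M e) :=
        h67gex_sum_le μ (NL M) (fun e => h67x M e) (fun e => h67Meas_x M e)
    _ ≤ ∑ e ∈ NL M, h67gex μ (h67U M e) := by
        apply Finset.sum_le_sum
        intro e he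
        rw [h67gex_swap μ (h67x M e) (h67Meas_x M e) e]
        exact h67gex_mono μ _ _ (fun S V hS _ => h67_x_swap_le M S V hS e he)
    _ ≤ h67gex μ (fun S V => ∑ e ∈ NL M, h67U M e S V) :=
        h67gex_le_sum μ (NL M) (fun e => h67U M e)
          (fun e S V hS _ => h67U_nonneg M e S V hS)
    _ ≤ h67gex μ (fun S _ => topS M S) :=
        h67gex_mono μ _ _ (fun S V hS _ => h67_sum_U_le M S V hS)

theorem h67u_nonneg (M : Matroid E) (e g : E) (S V : E → ℝ) (hV : ∀ e, 0 ≤ V e) :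
    0 ≤ h67u M e g S V := by
  unfold h67u
  split_ifs
  · exact hV e
  · exact le_refl 0

theorem h67qg_nonneg (M : Matroid E) (e : E) (S V : E → ℝ) (hV : ∀ e, 0 ≤ V e) :
    0 ≤ h67qg M e S V := by
  unfold h67qg
  split_ifs
  · exact hV e
  · exact le_refl 0

theorem h67_gex_elem (M : Matroid E) (μ : E → Measure ℝ≥0) [∀ e, IsProbabilityMeasure (μ e)]
    (e : E) (he : e ∈ NL M) :
    h67gex μ (h67h M e) ≤ 2 * h67gex μ (h67qg M e) := by
  have h1 : h67gex μ (h67h M e) = h67gex μ (h67q M e) := by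
    rw [h67gex_swap μ (h67h M e) (h67Meas_h M e) e]
    apply le_antisymm
    · exact h67gex_mono μ _ _ (fun S V _ _ => (h67_step2 M S V e he).le)
    · exact h67gex_mono μ _ _ (fun S V _ _ => (h67_step2 M S V e he).ge)
  have h2 : h67gex μ (h67q M e)
      ≤ h67gex μ (h67qg M e) + ∑ g ∈ (NL M).erase e, h67gex μ (h67bad M e g) := by
    calc h67gex μ (h67q M e)
        ≤ h67gex μ (fun S V => h67qg M e S V + ∑ g ∈ (NL M).erase e, h67bad M e g S V) :=
          h67gex_mono μ _ _ (fun S V _ hV => h67_step3 M S V hV e)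
      _ ≤ h67gex μ (h67qg M e)
            + h67gex μ (fun S V => ∑ g ∈ (NL M).erase e, h67bad M e g S V) :=
          h67gex_add_le μ _ _ (h67Meas_qg M e)
      _ ≤ h67gex μ (h67qg M e) + ∑ g ∈ (NL M).erase e, h67gex μ (h67bad M e g) :=
          add_le_add le_rfl
            (h67gex_sum_le μ _ (fun g => h67bad M e g) (fun g => h67Meas_bad M e g))
  have h3 : ∀ g ∈ (NL M).erase e, h67gex μ (h67bad M e g) ≤ h67gex μ (h67u M e g) := by
    intro g hgA
    rw [h67gex_swap μ (h67bad M e g) (h67Meas_bad M e g) g]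
    exact h67gex_mono μ _ _ (fun S V hS hV =>
      h67_step4 M S V hS hV e g (Finset.mem_of_mem_erase hgA) (Finset.ne_of_mem_erase hgA))
  have h4 : ∑ g ∈ (NL M).erase e, h67gex μ (h67u M e g) ≤ h67gex μ (h67qg M e) :=
    le_trans
      (h67gex_le_sum μ _ (fun g => h67u M e g) (fun g S V _ hV => h67u_nonneg M e g S V hV))
      (h67gex_mono μ _ _ (fun S V _ hV => h67_step5 M S V hV e))
  calc h67gex μ (h67h M e) = h67gex μ (h67q M e) := h1
    _ ≤ h67gex μ (h67qg M e) + ∑ g ∈ (NL M).erase e, h67gex μ (h67bad M e g) := h2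
    _ ≤ h67gex μ (h67qg M e) + ∑ g ∈ (NL M).erase e, h67gex μ (h67u M e g) :=
        add_le_add le_rfl (Finset.sum_le_sum h3)
    _ ≤ h67gex μ (h67qg M e) + h67gex μ (h67qg M e) := add_le_add le_rfl h4
    _ = 2 * h67gex μ (h67qg M e) := (two_mul _).symm

/-- (L2) for arbitrary laws. -/
theorem h67_gex_T_le (M : Matroid E) (μ : E → Measure ℝ≥0) [∀ e, IsProbabilityMeasure (μ e)] :
    h67gex μ (fun S _ => topS M S) ≤ 3 * h67gex μ (E0 M) + 2 * h67gex μ (EA M) := by
  have h1 : h67gex μ (fun S _ => topS M S)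
      ≤ h67gex μ (E0 M) + ∑ e ∈ NL M, h67gex μ (h67h M e) := by
    calc h67gex μ (fun S _ => topS M S)
        ≤ h67gex μ (fun S V => E0 M S V + ∑ e ∈ NL M, h67h M e S V) :=
          h67gex_mono μ _ _ (fun S V hS _ => h67_step1 M S V hS)
      _ ≤ h67gex μ (E0 M) + h67gex μ (fun S V => ∑ e ∈ NL M, h67h M e S V) :=
          h67gex_add_le μ _ _ (h67Meas_E0 M)
      _ ≤ h67gex μ (E0 M) + ∑ e ∈ NL M, h67gex μ (h67h M e) :=
          add_le_add le_rfl
            (h67gex_sum_le μ _ (fun e => h67h M e) (fun e => h67Meas_h M e))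
  have h2 : ∑ e ∈ NL M, h67gex μ (h67h M e) ≤ ∑ e ∈ NL M, 2 * h67gex μ (h67qg M e) :=
    Finset.sum_le_sum (fun e he => h67_gex_elem M μ e he)
  have h3 : ∑ e ∈ NL M, h67gex μ (h67qg M e) ≤ h67gex μ (E0 M) + h67gex μ (EA M) := by
    calc ∑ e ∈ NL M, h67gex μ (h67qg M e)
        ≤ h67gex μ (fun S V => ∑ e ∈ NL M, h67qg M e S V) :=
          h67gex_le_sum μ _ (fun e => h67qg M e)
            (fun e S V _ hV => h67qg_nonneg M e S V hV)
      _ ≤ h67gex μ (fun S V => E0 M S V + EA M S V) :=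
          h67gex_mono μ _ _ (fun S V _ hV => h67_step6 M S V hV)
      _ ≤ h67gex μ (E0 M) + h67gex μ (EA M) := h67gex_add_le μ _ _ (h67Meas_E0 M)
  calc h67gex μ (fun S _ => topS M S)
      ≤ h67gex μ (E0 M) + ∑ e ∈ NL M, h67gex μ (h67h M e) := h1
    _ ≤ h67gex μ (E0 M) + ∑ e ∈ NL M, 2 * h67gex μ (h67qg M e) := add_le_add le_rfl h2
    _ = h67gex μ (E0 M) + 2 * ∑ e ∈ NL M, h67gex μ (h67qg M e) := by rw [Finset.mul_sum]
    _ ≤ h67gex μ (E0 M) + 2 * (h67gex μ (E0 M) + h67gex μ (EA M)) := by gcongr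
    _ = 3 * h67gex μ (E0 M) + 2 * h67gex μ (EA M) := by ring

/-- The pointwise inequality behind the guarantee. -/
theorem h67_pointwise (M : Matroid E) (k J : ℕ) (hkJ : k ≤ 2 ^ J)
    (hk : ∀ I : Finset E, M.Indep (I : Set E) → I.card ≤ k)
    (S V : E → ℝ) (hV : ∀ e, 0 ≤ V e) (l : Fin (J + 10) → List E) (hl : ∀ r e, e ∈ l r)
    (I : Finset E) (hI : M.Indep (I : Set E)) :
    ∑ e ∈ I, V e + (4 * EA M S V + 6 * E0 M S V)
      ≤ (topS M S + ∑ e ∈ NL M, h67x M e S V)
        + ∑ r : Fin (J + 10), ∑ x ∈ (thrRule M J).run S r V (l r), V x := by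
  have h1 := level_ineq M k J hkJ I hI (hk I hI) V hV (topS M S) (topS_nonneg M S)
  have h2 : ∑ r : Fin (J + 10), gainLB M S V I r.val
      ≤ ∑ r : Fin (J + 10), ∑ x ∈ (thrRule M J).run S r V (l r), V x :=
    Finset.sum_le_sum (fun r _ => gainLB_le_run M J S V hV r (l r) (hl r) I hI)
  rw [sum_gainLB] at h2
  unfold h67x
  linarith

/-- The expected sum of the scale and the excess is at most the expected gain bound of the
first ten seeds. -/
theorem h67_gex_scale (M : Matroid E) (μ : E → Measure ℝ≥0)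
    [∀ e, IsProbabilityMeasure (μ e)] :
    h67gex μ (fun S V => topS M S + ∑ e ∈ NL M, h67x M e S V)
      ≤ h67gex μ (fun S V => 4 * EA M S V + 6 * E0 M S V) := by
  have hT := h67_gex_T_le M μ
  have hX := h67_gex_X_le M μ
  have h1 : h67gex μ (fun S V => topS M S + ∑ e ∈ NL M, h67x M e S V)
      ≤ h67gex μ (fun S _ => topS M S) + h67gex μ (fun S V => ∑ e ∈ NL M, h67x M e S V) :=
    h67gex_add_le μ _ _ (h67Meas_T M)
  have h2 : h67gex μ (fun S V => 4 * EA M S V) + h67gex μ (fun S V => 6 * E0 M S V)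
      ≤ h67gex μ (fun S V => 4 * EA M S V + 6 * E0 M S V) :=
    h67gex_le_add μ _ _
      (fun S V _ hV => mul_nonneg (by norm_num) (EA_nonneg M S V hV))
      (fun S V _ _ => mul_nonneg (by norm_num) (E0_nonneg M S V))
  rw [h67gex_const_mul μ 4 (by norm_num), h67gex_const_mul μ 6 (by norm_num),
    ENNReal.ofReal_ofNat, ENNReal.ofReal_ofNat] at h2
  calc h67gex μ (fun S V => topS M S + ∑ e ∈ NL M, h67x M e S V)
      ≤ h67gex μ (fun S _ => topS M S) + h67gex μ (fun S V => ∑ e ∈ NL M, h67x M e S V) := h1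
    _ ≤ h67gex μ (fun S _ => topS M S) + h67gex μ (fun S _ => topS M S) :=
        add_le_add le_rfl hX
    _ ≤ (3 * h67gex μ (E0 M) + 2 * h67gex μ (EA M))
          + (3 * h67gex μ (E0 M) + 2 * h67gex μ (EA M)) := add_le_add hT hT
    _ = 4 * h67gex μ (EA M) + 6 * h67gex μ (E0 M) := by ring
    _ ≤ h67gex μ (fun S V => 4 * EA M S V + 6 * E0 M S V) := h2

/-- The one-sample guarantee of the threshold rule for arbitrary laws on the nonnegative
reals: the expected maximum weight of an independent set is at most the expected sum, over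
the `J + 10` seeds, of the accepted weight. -/
theorem h67_guarantee (M : Matroid E) (k J : ℕ) (hkJ : k ≤ 2 ^ J)
    (hk : ∀ I : Finset E, M.Indep (I : Set E) → I.card ≤ k)
    (μ : E → Measure ℝ≥0) [∀ e, IsProbabilityMeasure (μ e)]
    (adv : (E → ℝ≥0) → (E → ℝ≥0) → Fin (J + 10) → List E)
    (hadv : ∀ s v r e, e ∈ adv s v r) :
    ∫⁻ v, (⨆ I : {I : Finset E // M.Indep (I : Set E)},
        ENNReal.ofReal (∑ e ∈ I.1, (v e : ℝ))) ∂(Measure.pi μ)
      ≤ ∫⁻ p, ∑ r : Fin (J + 10),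
          ENNReal.ofReal (∑ e ∈ (thrRule M J).run (fun e => (p.1 e : ℝ)) r
            (fun e => (p.2 e : ℝ)) (adv p.1 p.2 r), (p.2 e : ℝ))
        ∂((Measure.pi μ).prod (Measure.pi μ)) := by
  -- abbreviations
  set f : (E → ℝ≥0) → ℝ≥0∞ := fun v => ⨆ I : {I : Finset E // M.Indep (I : Set E)},
    ENNReal.ofReal (∑ e ∈ I.1, (v e : ℝ)) with hf
  set G : (E → ℝ≥0) × (E → ℝ≥0) → ℝ := fun p => ∑ r : Fin (J + 10),
    ∑ x ∈ (thrRule M J).run (h67cr p.1) r (h67cr p.2) (adv p.1 p.2 r), h67cr p.2 x with hG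
  set A : (E → ℝ≥0) × (E → ℝ≥0) → ℝ := fun p =>
    4 * EA M (h67cr p.1) (h67cr p.2) + 6 * E0 M (h67cr p.1) (h67cr p.2) with hA
  set B : (E → ℝ≥0) × (E → ℝ≥0) → ℝ := fun p =>
    topS M (h67cr p.1) + ∑ e ∈ NL M, h67x M e (h67cr p.1) (h67cr p.2) with hB
  have hA0 : ∀ p, 0 ≤ A p := fun p =>
    add_nonneg (mul_nonneg (by norm_num) (EA_nonneg M _ _ (h67cr_nonneg p.2)))
      (mul_nonneg (by norm_num) (E0_nonneg M _ _))
  have hB0 : ∀ p, 0 ≤ B p := fun p =>
    add_nonneg (topS_nonneg M _) (Finset.sum_nonneg fun e _ => by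
      unfold h67x
      split_ifs
      · exact h67cr_nonneg p.2 e
      · exact le_refl 0)
  have hpt : ∀ p (I : Finset E), M.Indep (I : Set E) →
      ∑ e ∈ I, h67cr p.2 e + A p ≤ B p + G p := fun p I hI =>
    h67_pointwise M k J hkJ hk (h67cr p.1) (h67cr p.2) (h67cr_nonneg p.2)
      (fun r => adv p.1 p.2 r) (fun r e => hadv p.1 p.2 r e) I hI
  have hGA : ∀ p, 0 ≤ G p - A p := by
    intro p
    have h := hpt p ∅ (by simp)
    have h1 : ∑ r : Fin (J + 10), gainLB M (h67cr p.1) (h67cr p.2) ∅ r.val ≤ G p :=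
      Finset.sum_le_sum (fun r _ => gainLB_le_run M J (h67cr p.1) (h67cr p.2)
        (h67cr_nonneg p.2) r (adv p.1 p.2 r) (hadv p.1 p.2 r) ∅ (by simp))
    rw [sum_gainLB] at h1
    simp only [Finset.filter_empty, Finset.card_empty, Nat.cast_zero, mul_zero,
      Finset.sum_const_zero, add_zero] at h1
    linarith
  -- step A: the prophet side on the joint law
  have hsnd : MeasurePreserving Prod.snd ((Measure.pi μ).prod (Measure.pi μ)) (Measure.pi μ) :=
    measurePreserving_snd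
  have stepA : ∫⁻ v, f v ∂(Measure.pi μ)
      ≤ ∫⁻ p, f p.2 ∂((Measure.pi μ).prod (Measure.pi μ)) := by
    calc ∫⁻ v, f v ∂(Measure.pi μ)
        = ∫⁻ v, f v ∂(Measure.map Prod.snd ((Measure.pi μ).prod (Measure.pi μ))) := by
          rw [hsnd.map_eq]
      _ ≤ ∫⁻ p, f p.2 ∂((Measure.pi μ).prod (Measure.pi μ)) := lintegral_map_le f Prod.snd
  -- step B: pointwise
  have stepB : ∀ p : (E → ℝ≥0) × (E → ℝ≥0),
      f p.2 ≤ ENNReal.ofReal (B p) + ENNReal.ofReal (G p - A p) := by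
    intro p
    rw [hf]
    apply iSup_le
    intro I
    rw [← ENNReal.ofReal_add (hB0 p) (hGA p)]
    apply ENNReal.ofReal_le_ofReal
    have h := hpt p I.1 I.2
    show ∑ e ∈ I.1, h67cr p.2 e ≤ B p + (G p - A p)
    linarith
  -- step C, D, E
  have hBm : Measurable (fun p : (E → ℝ≥0) × (E → ℝ≥0) => ENNReal.ofReal (B p)) := by
    apply Measurable.ennreal_ofReal
    exact (h67_measT M).add (Finset.measurable_sum _ (fun e _ => h67Meas_x M e))
  have stepD : ∫⁻ p, ENNReal.ofReal (B p) ∂((Measure.pi μ).prod (Measure.pi μ))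
      ≤ ∫⁻ p, ENNReal.ofReal (A p) ∂((Measure.pi μ).prod (Measure.pi μ)) :=
    h67_gex_scale M μ
  have stepE : ∀ p : (E → ℝ≥0) × (E → ℝ≥0),
      ENNReal.ofReal (A p) + ENNReal.ofReal (G p - A p)
        = ∑ r : Fin (J + 10),
          ENNReal.ofReal (∑ e ∈ (thrRule M J).run (fun e => (p.1 e : ℝ)) r
            (fun e => (p.2 e : ℝ)) (adv p.1 p.2 r), (p.2 e : ℝ)) := by
    intro p
    rw [← ENNReal.ofReal_add (hA0 p) (hGA p)]
    have h1 : A p + (G p - A p) = G p := by ring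
    rw [h1, hG]
    rw [ENNReal.ofReal_sum_of_nonneg]
    · rfl
    · intro r _
      exact Finset.sum_nonneg fun x _ => h67cr_nonneg p.2 x
  calc ∫⁻ v, f v ∂(Measure.pi μ)
      ≤ ∫⁻ p, f p.2 ∂((Measure.pi μ).prod (Measure.pi μ)) := stepA
    _ ≤ ∫⁻ p, (ENNReal.ofReal (B p) + ENNReal.ofReal (G p - A p))
          ∂((Measure.pi μ).prod (Measure.pi μ)) := lintegral_mono stepB
    _ = ∫⁻ p, ENNReal.ofReal (B p) ∂((Measure.pi μ).prod (Measure.pi μ))
          + ∫⁻ p, ENNReal.ofReal (G p - A p) ∂((Measure.pi μ).prod (Measure.pi μ)) :=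
        lintegral_add_left hBm _
    _ ≤ ∫⁻ p, ENNReal.ofReal (A p) ∂((Measure.pi μ).prod (Measure.pi μ))
          + ∫⁻ p, ENNReal.ofReal (G p - A p) ∂((Measure.pi μ).prod (Measure.pi μ)) :=
        add_le_add stepD le_rfl
    _ ≤ ∫⁻ p, (ENNReal.ofReal (A p) + ENNReal.ofReal (G p - A p))
          ∂((Measure.pi μ).prod (Measure.pi μ)) := le_lintegral_add _ _
    _ = _ := lintegral_congr stepE

end

end Vale.Agent.Lib.P331
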